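import Mathlib
import Vale.Agent.Lib.P188.Defs
import Vale.Agent.Lib.P188.Affine

/-!
# P188: quasi-isometric recognition when the induced quasi-action is almost affine

Let `H`, `G` be finitely generated groups with word metrics, `G` virtually polycyclic, and let
`F : H → G` be a `(K,C)`-quasi-isometry.  Assume that the quasi-action of `H` on `G` obtained by
transporting left multiplication through `F` is uniformly close to affine maps
`x ↦ g * α x` of `G` (`α` an endomorphism, for instance an automorphism, of `G`).
Then `H` is virtually polycyclic.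
-/

namespace Vale.Agent.Results.P188.AffineQuasiAction

open Vale.Agent.Lib.P188

theorem result {H G : Type*} [Group H] [Group G] (SH : Set H) (SG : Set G)
    (hSH : SH.Finite) (hSG : SG.Finite)
    (hgenH : Subgroup.closure SH = ⊤) (hgenG : Subgroup.closure SG = ⊤)
    (hG : IsVirtuallyPolycyclic G) (K C : ℝ) (F : H → G)
    (hF : IsQuasiIsometry (wordDist SH) (wordDist SG) K C F)
    (haff : ∃ R : ℝ, ∀ h : H, ∃ (g : G) (α : G →* G), ∀ x : H,
      wordDist SG (F (h * x)) (g * α (F x)) ≤ R) :
    IsVirtuallyPolycyclic H := by
  obtain ⟨hK, _, hbi, _⟩ := hF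
  obtain ⟨R, hR⟩ := haff
  rw [isVirtuallyPolycyclic_iff] at hG ⊢
  exact poly_of_affine hSH hSG hgenH hgenG hG F K C (by linarith)
    (fun x x' => (hbi x x').1) (fun x x' => (hbi x x').2) R hR

end Vale.Agent.Results.P188.AffineQuasiAction
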