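import Mathlib
import Vale.Agent.Lib.P188.Defs
import Vale.Agent.Lib.P188.Quasi
import Vale.Agent.Lib.P188.Virt

/-!
# P188: finite-to-one quasi-homomorphisms into virtually polycyclic groups

If `G` is virtually polycyclic and `f : H → G` is any map from any group `H` with finite fibres
whose defect set `{(f x * f y)⁻¹ * f (x * y)}` is finite, then `H` is virtually polycyclic.
-/

namespace Vale.Agent.Results.P188.QuasiHomomorphism

open Vale.Agent.Lib.P188

theorem result {H G : Type*} [Group H] [Group G] (hG : IsVirtuallyPolycyclic G) (f : H → G)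
    (hdef : {d : G | ∃ x y : H, d = (f x * f y)⁻¹ * f (x * y)}.Finite)
    (hfib : ∀ g : G, {x : H | f x = g}.Finite) :
    IsVirtuallyPolycyclic H := by
  rw [isVirtuallyPolycyclic_iff] at hG ⊢
  exact poly_of_quasihom hG f _ hdef (fun x y => ⟨x, y, rfl⟩) hfib

end Vale.Agent.Results.P188.QuasiHomomorphism
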