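import Mathlib
import Vale.Agent.Lib.P188.Defs
import Vale.Agent.Results.P188.AffineQuasiAction
import Vale.Agent.Results.P188.QuasiHomomorphism

/-!
# P188: two recognition theorems for virtually polycyclic groups, in one statement

(1) Let `H`, `G` be finitely generated groups with word metrics, `G` virtually polycyclic, and let
`F : H → G` be a `(K,C)`-quasi-isometry such that the quasi-action of `H` on `G` obtained by
transporting left multiplication through `F` is uniformly close to affine maps `x ↦ g * α x`
of `G` (`α` an endomorphism of `G`).  Then `H` is virtually polycyclic.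

(2) If `G` is virtually polycyclic and `f : H → G` is any map from any group `H` (not assumed
finitely generated) with finite fibres whose defect set `{(f x * f y)⁻¹ * f (x * y)}` is finite,
then `H` is virtually polycyclic.
-/

namespace Vale.Agent.Results.P188.A_Combined

open Vale.Agent.Lib.P188

universe u v

theorem result :
    (∀ (H : Type u) (G : Type v) [Group H] [Group G] (SH : Set H) (SG : Set G),
      SH.Finite → SG.Finite →
      Subgroup.closure SH = ⊤ → Subgroup.closure SG = ⊤ →
      IsVirtuallyPolycyclic G → ∀ (K C : ℝ) (F : H → G),
      IsQuasiIsometry (wordDist SH) (wordDist SG) K C F →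
      (∃ R : ℝ, ∀ h : H, ∃ (g : G) (α : G →* G), ∀ x : H,
        wordDist SG (F (h * x)) (g * α (F x)) ≤ R) →
      IsVirtuallyPolycyclic H) ∧
    (∀ (H : Type u) (G : Type v) [Group H] [Group G],
      IsVirtuallyPolycyclic G → ∀ f : H → G,
      {d : G | ∃ x y : H, d = (f x * f y)⁻¹ * f (x * y)}.Finite →
      (∀ g : G, {x : H | f x = g}.Finite) →
      IsVirtuallyPolycyclic H) :=
  ⟨fun _ _ _ _ SH SG hSH hSG hgenH hgenG hG K C F hF haff =>
      Vale.Agent.Results.P188.AffineQuasiAction.result SH SG hSH hSG hgenH hgenG hG K C F hF haff,
    fun _ _ _ _ hG f hdef hfib =>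
      Vale.Agent.Results.P188.QuasiHomomorphism.result hG f hdef hfib⟩

end Vale.Agent.Results.P188.A_Combined
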